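import Vale.Agent.P216.MathlibUsed
import Mathlib.Analysis.InnerProductSpace.PiL2

/-!
# Lipschitz approximation of maps into a round sphere

`exists_lip`: a continuous map of a compact metric space into the unit sphere of a Euclidean space
is uniformly close to a Lipschitz map.
-/

open Set Metric

namespace Vale.Agent.P216.H126L

variable {M : Type*} [MetricSpace M] [CompactSpace M]

/-- Real valued continuous functions are approximated by Lipschitz functions. -/
theorem exists_lip_real (f : C(M, ℝ)) {ε : ℝ} (hε : 0 < ε) :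
    ∃ (g : M → ℝ) (K : NNReal), LipschitzWith K g ∧ ∀ x, |g x - f x| ≤ ε := by
  classical
  rcases isEmpty_or_nonempty M with hM | hM
  · exact ⟨fun _ => 0, 0, LipschitzWith.const 0, fun x => (hM.false x).elim⟩
  have hu : UniformContinuous f := CompactSpace.uniformContinuous_of_continuous f.continuous
  obtain ⟨δ, hδ, H⟩ := Metric.uniformContinuous_iff.1 hu ε hε
  set C : ℝ := ‖f‖ with hC
  have hC0 : 0 ≤ C := norm_nonneg _
  have hfC : ∀ x, |f x| ≤ C := fun x => by simpa using f.norm_coe_le_norm x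
  set K : ℝ := 2 * C / δ with hK
  have hK0 : 0 ≤ K := by positivity
  have hbdd : ∀ x, BddBelow (range fun y => f y + K * dist x y) := fun x =>
    ⟨-C, by
      rintro _ ⟨y, rfl⟩
      have h1 := neg_le_of_abs_le (hfC y)
      have h2 : 0 ≤ K * dist x y := by positivity
      simp only
      linarith⟩
  set g : M → ℝ := fun x => ⨅ y, f y + K * dist x y with hg
  have hle : ∀ x y, g x ≤ g y + K * dist x y := by
    intro x y
    have : g x - K * dist x y ≤ g y := by
      refine le_ciInf fun z => ?_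
      have h1 : g x ≤ f z + K * dist x z := ciInf_le (hbdd x) z
      have h2 : K * dist x z ≤ K * (dist x y + dist y z) :=
        mul_le_mul_of_nonneg_left (dist_triangle _ _ _) hK0
      linarith
    linarith
  refine ⟨g, K.toNNReal, LipschitzWith.of_dist_le_mul fun x y => ?_, fun x => ?_⟩
  · rw [Real.coe_toNNReal _ hK0, Real.dist_eq, abs_le]
    have h1 := hle x y
    have h2 := hle y x
    rw [dist_comm y x] at h2
    constructor <;> linarith
  · have h1 : g x ≤ f x := by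
      have := ciInf_le (hbdd x) x
      simpa using this
    have h2 : f x - ε ≤ g x := by
      refine le_ciInf fun y => ?_
      rcases lt_or_ge (dist x y) δ with h | h
      · have h3 := (H h)
        rw [Real.dist_eq, abs_lt] at h3
        have h4 : 0 ≤ K * dist x y := by positivity
        linarith [h3.2]
      · have h3 : 2 * C ≤ K * dist x y := by
          rw [hK, div_mul_eq_mul_div, le_div_iff₀ hδ]
          exact mul_le_mul_of_nonneg_left h (by positivity)
        have h4 := neg_le_of_abs_le (hfC y)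
        have h5 := le_of_abs_le (hfC x)
        linarith
    rw [abs_le]
    constructor <;> linarith

/-- Continuous maps to a finite power of the line are approximated by Lipschitz maps. -/
theorem exists_lip_pi {ι : Type*} [Fintype ι] (f : C(M, ι → ℝ)) {ε : ℝ} (hε : 0 < ε) :
    ∃ (g : M → ι → ℝ) (K : NNReal), LipschitzWith K g ∧ ∀ x, dist (g x) (f x) ≤ ε := by
  classical
  have h1 : ∀ i : ι, ∃ (g : M → ℝ) (K : NNReal), LipschitzWith K g ∧ ∀ x, |g x - f x i| ≤ ε :=
    fun i => exists_lip_real ⟨fun x => f x i, (continuous_apply i).comp f.continuous⟩ hε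
  choose g K hK hg using h1
  refine ⟨fun x i => g i x, Finset.univ.sup K, ?_, fun x => ?_⟩
  · refine LipschitzWith.of_dist_le_mul fun x y => ?_
    refine (dist_pi_le_iff (by positivity)).2 fun i => ?_
    refine ((hK i).dist_le_mul x y).trans (mul_le_mul_of_nonneg_right ?_ dist_nonneg)
    exact_mod_cast Finset.le_sup (f := K) (Finset.mem_univ i)
  · exact (dist_pi_le_iff hε.le).2 fun i => by rw [Real.dist_eq]; exact hg i x

/-- Continuous maps to a Euclidean space are approximated by Lipschitz maps. -/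
theorem exists_lip_vec {n : ℕ} (f : C(M, EuclideanSpace ℝ (Fin n))) {ε : ℝ} (hε : 0 < ε) :
    ∃ (g : M → EuclideanSpace ℝ (Fin n)) (K : NNReal), LipschitzWith K g ∧
      ∀ x, dist (g x) (f x) ≤ ε := by
  set L := (EuclideanSpace.equiv (Fin n) ℝ).symm with hL
  set Ln : NNReal := ‖(L : (Fin n → ℝ) →L[ℝ] EuclideanSpace ℝ (Fin n))‖₊ with hLn
  have hlip : LipschitzWith Ln L := (L : (Fin n → ℝ) →L[ℝ] EuclideanSpace ℝ (Fin n)).lipschitz
  obtain ⟨g, K, hK, hg⟩ := exists_lip_pi
    (⟨fun x => EuclideanSpace.equiv (Fin n) ℝ (f x),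
      (EuclideanSpace.equiv (Fin n) ℝ).continuous.comp f.continuous⟩ : C(M, Fin n → ℝ))
    (ε := ε / (Ln + 1)) (by positivity)
  refine ⟨fun x => L (g x), Ln * K, hlip.comp hK, fun x => ?_⟩
  have h1 : f x = L (EuclideanSpace.equiv (Fin n) ℝ (f x)) := by
    rw [hL]; exact ((EuclideanSpace.equiv (Fin n) ℝ).symm_apply_apply _).symm
  calc dist (L (g x)) (f x) = dist (L (g x)) (L (EuclideanSpace.equiv (Fin n) ℝ (f x))) := by
        rw [← h1]
    _ ≤ Ln * dist (g x) (EuclideanSpace.equiv (Fin n) ℝ (f x)) := hlip.dist_le_mul _ _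
    _ ≤ Ln * (ε / (Ln + 1)) := mul_le_mul_of_nonneg_left (hg x) Ln.2
    _ ≤ ε := by
        rw [mul_div_assoc', div_le_iff₀ (by positivity)]
        nlinarith [Ln.2, hε.le]

section Normalise

variable {V : Type*} [NormedAddCommGroup V] [NormedSpace ℝ V]

/-- Lipschitz estimate for the normalisation. -/
theorem dist_normalise {x y : V} {c : ℝ} (hc : 0 < c) (hx : c ≤ ‖x‖) (hy : y ≠ 0) :
    dist (‖x‖⁻¹ • x) (‖y‖⁻¹ • y) ≤ 2 / c * dist x y := by
  have hx0 : 0 < ‖x‖ := hc.trans_le hx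
  have hy0 : 0 < ‖y‖ := norm_pos_iff.2 hy
  have e : ‖x‖⁻¹ • x - ‖y‖⁻¹ • y = ‖x‖⁻¹ • (x - y) + (‖x‖⁻¹ - ‖y‖⁻¹) • y := by
    rw [smul_sub, sub_smul]; abel
  have h1 : ‖‖x‖⁻¹ • (x - y)‖ = ‖x‖⁻¹ * ‖x - y‖ := by
    rw [norm_smul, norm_inv, norm_norm]
  have h2 : ‖(‖x‖⁻¹ - ‖y‖⁻¹) • y‖ ≤ ‖x‖⁻¹ * ‖x - y‖ := by
    have h3 : (‖x‖⁻¹ - ‖y‖⁻¹) = (‖y‖ - ‖x‖) * (‖x‖⁻¹ * ‖y‖⁻¹) := by
      field_simp
    rw [norm_smul, h3, norm_mul, norm_mul, norm_inv, norm_inv, norm_norm, norm_norm,
      mul_assoc, mul_assoc, inv_mul_cancel₀ hy0.ne', mul_one, mul_comm]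
    refine mul_le_mul_of_nonneg_left ?_ (by positivity)
    rw [Real.norm_eq_abs, abs_sub_comm]
    exact abs_norm_sub_norm_le x y
  rw [dist_eq_norm, e, dist_eq_norm]
  calc _ ≤ ‖x‖⁻¹ * ‖x - y‖ + ‖x‖⁻¹ * ‖x - y‖ := (norm_add_le _ _).trans (by rw [h1]; gcongr)
    _ = 2 / ‖x‖ * ‖x - y‖ := by ring
    _ ≤ 2 / c * ‖x - y‖ := by gcongr

end Normalise

/-- **Lipschitz approximation of maps into the sphere.** -/
theorem exists_lip {n : ℕ} (f : C(M, sphere (0 : EuclideanSpace ℝ (Fin n)) 1)) {ε : ℝ}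
    (hε : 0 < ε) : ∃ (g : C(M, sphere (0 : EuclideanSpace ℝ (Fin n)) 1)) (K : NNReal),
      LipschitzWith K g ∧ ∀ x, dist (g x) (f x) ≤ ε := by
  obtain ⟨g, K, hK, hg⟩ := exists_lip_vec
    (⟨fun x => (f x : EuclideanSpace ℝ (Fin n)), continuous_subtype_val.comp f.continuous⟩ :
      C(M, EuclideanSpace ℝ (Fin n))) (ε := min (1 / 2) (ε / 4)) (by positivity)
  have hf1 : ∀ x, ‖(f x : EuclideanSpace ℝ (Fin n))‖ = 1 := fun x => norm_eq_of_mem_sphere (f x)
  have hg1 : ∀ x, 1 / 2 ≤ ‖g x‖ := fun x => by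
    have h1 := (hg x).trans (min_le_left _ _)
    rw [dist_eq_norm] at h1
    have h2 := norm_sub_norm_le (f x : EuclideanSpace ℝ (Fin n)) (f x - g x)
    rw [sub_sub_cancel, hf1 x, norm_sub_rev] at h2
    have h3 : ‖g x - (f x : EuclideanSpace ℝ (Fin n))‖ ≤ 1 / 2 := h1
    linarith
  have hg0 : ∀ x, g x ≠ 0 := fun x h => by
    have := hg1 x
    rw [h, norm_zero] at this
    norm_num at this
  have hmem : ∀ x, ‖g x‖⁻¹ • g x ∈ sphere (0 : EuclideanSpace ℝ (Fin n)) 1 := fun x => by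
    rw [mem_sphere_zero_iff_norm, norm_smul, norm_inv, norm_norm,
      inv_mul_cancel₀ (norm_ne_zero_iff.2 (hg0 x))]
  have hlip : LipschitzWith (4 * K) fun x =>
      (⟨_, hmem x⟩ : sphere (0 : EuclideanSpace ℝ (Fin n)) 1) := by
    refine LipschitzWith.of_dist_le_mul fun x y => ?_
    have h1 : dist (‖g x‖⁻¹ • g x) (‖g y‖⁻¹ • g y) ≤ 2 / (1 / 2) * dist (g x) (g y) :=
      dist_normalise (by norm_num) (hg1 x) (hg0 y)
    have h2 := hK.dist_le_mul x y
    refine (h1.trans (mul_le_mul_of_nonneg_left h2 (by norm_num))).trans (le_of_eq ?_)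
    push_cast
    ring
  refine ⟨⟨_, hlip.continuous⟩, 4 * K, hlip, fun x => ?_⟩
  have hf0 : (f x : EuclideanSpace ℝ (Fin n)) ≠ 0 := fun h => by
    have := hf1 x
    rw [h, norm_zero] at this
    norm_num at this
  have h1 : dist (‖g x‖⁻¹ • g x)
      (‖(f x : EuclideanSpace ℝ (Fin n))‖⁻¹ • (f x : EuclideanSpace ℝ (Fin n))) ≤
      2 / (1 / 2) * dist (g x) (f x) := dist_normalise (by norm_num) (hg1 x) hf0
  rw [hf1, inv_one, one_smul] at h1
  have h2 := (hg x).trans (min_le_right _ _)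
  have h3 : dist (g x) (f x : EuclideanSpace ℝ (Fin n)) ≤ ε / 4 := h2
  refine h1.trans ?_
  linarith

end Vale.Agent.P216.H126L
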