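import Vale.Agent.P216.MathlibUsed
import Mathlib.Analysis.Quaternion
import Mathlib.Analysis.Normed.Field.UnitBall
import Vale.Agent.P216.GM.Spec

/-!
# Loops in the unit quaternions: circle action, reversal, and the equivariant map `q`

`G` a group with a bi-invariant metric (e.g. the unit quaternions `G3`, homeomorphic to the unit
sphere of dimension `3`).  On `LM G`:
* `rotG a w = (r ↦ w (r + a) w(a)⁻¹ w(0))`, an action of `ℝ / ℤ` which preserves `w 0`;
* `rev w = (r ↦ w (-r))`, `rev (rotG a w) = rotG (-a) (rev w)`;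
* `qh h γ = (r ↦ h (γ r) h (γ 0)⁻¹)`, `qh (rot a γ) = rotG a (qh γ)`, `qh (rev γ) = rev (qh γ)`;
* `GE h s = qh h '' XE M s`: compact, increasing, invariant.
-/

open Set Filter Topology

namespace Vale.Agent.P216.H126L

open L250 GM

/-- The metric of the group `G` is invariant under left and right translations. -/
class BiInv (G : Type) [MetricSpace G] [Group G] : Prop where
  left : ∀ a b c : G, dist (c * a) (c * b) = dist a b
  right : ∀ a b c : G, dist (a * c) (b * c) = dist a b

section BiInv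

variable {G : Type} [MetricSpace G] [Group G] [BiInv G]

theorem dist_mul (a b a' b' : G) : dist (a * b) (a' * b') ≤ dist a a' + dist b b' := by
  have h := dist_triangle (a * b) (a' * b) (a' * b')
  rwa [BiInv.right, BiInv.left] at h

theorem dist_inv (a b : G) : dist a⁻¹ b⁻¹ = dist a b := by
  rw [← BiInv.left a⁻¹ b⁻¹ a, mul_inv_cancel, ← BiInv.right 1 (a * b⁻¹) b, one_mul,
    inv_mul_cancel_right, dist_comm]

theorem continuous_mulR (c : G) : Continuous fun x : G => x * c :=
  (Isometry.of_dist_eq fun a b => BiInv.right a b c).continuous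

theorem continuous_mulL (c : G) : Continuous fun x : G => c * x :=
  (Isometry.of_dist_eq fun a b => BiInv.left a b c).continuous

/-! ### The circle action -/

/-- The circle action on the loops in `G`. -/
def rotG (a : ℝ) (w : LM G) : LM G :=
  ofFn (fun t => fn w (t + a) * ((fn w a)⁻¹ * fn w 0))
    ((continuous_mulR _).comp ((continuous_fn w).comp (continuous_id.add continuous_const)))
    fun t => by
      change fn w (t + 1 + a) * _ = fn w (t + a) * _
      rw [add_right_comm, fn_periodic]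

@[simp] theorem fn_rotG (a : ℝ) (w : LM G) (t : ℝ) :
    fn (rotG a w) t = fn w (t + a) * ((fn w a)⁻¹ * fn w 0) := rfl

@[simp] theorem rotG_zero (w : LM G) : rotG 0 w = w := ext_fn fun t => by
  rw [fn_rotG, add_zero, inv_mul_cancel, mul_one]

theorem fn_rotG_zero (a : ℝ) (w : LM G) : fn (rotG a w) 0 = fn w 0 := by
  rw [fn_rotG, zero_add, mul_inv_cancel_left]

theorem rotG_rotG (a b : ℝ) (w : LM G) : rotG a (rotG b w) = rotG (a + b) w :=
  ext_fn fun t => by
    rw [fn_rotG, fn_rotG_zero, fn_rotG, fn_rotG, fn_rotG, add_assoc]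
    group

theorem rotG_one (w : LM G) : rotG 1 w = w := ext_fn fun t => by
  have h1 : fn w (t + 1) = fn w t := fn_periodic w t
  have h2 : fn w 1 = fn w 0 := by simpa using fn_periodic w 0
  rw [fn_rotG, h1, h2, inv_mul_cancel, mul_one]

theorem rotG_nat (n : ℕ) (w : LM G) : rotG n w = w := by
  induction n with
  | zero => simp
  | succ n ih => rw [Nat.cast_succ, add_comm, ← rotG_rotG, ih, rotG_one]

/-- `rotG (1 / p)` has order `p`. -/
theorem rotG_iterate (a : ℝ) (n : ℕ) (w : LM G) : (rotG a)^[n] w = rotG (n * a) w := by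
  induction n with
  | zero => simp
  | succ n ih =>
    rw [Function.iterate_succ_apply', ih, rotG_rotG, Nat.cast_succ, add_mul, one_mul, add_comm]

theorem rotG_pow {p : ℕ} (hp : 0 < p) (w : LM G) : (rotG (1 / p : ℝ))^[p] w = w := by
  rw [rotG_iterate, mul_one_div, div_self (Nat.cast_ne_zero.2 hp.ne'), rotG_one]

theorem rev_rotG (a : ℝ) (w : LM G) : L250.rev (rotG a w) = rotG (-a) (L250.rev w) :=
  ext_fn fun t => by
    rw [fn_rev, fn_rotG, fn_rotG, fn_rev, fn_rev, fn_rev, neg_neg, neg_add, neg_neg, neg_zero]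

theorem dist_rotG_le (a : ℝ) (w w' : LM G) : dist (rotG a w) (rotG a w') ≤ 3 * dist w w' := by
  rw [dist_le_iff (by positivity)]
  intro t
  rw [fn_rotG, fn_rotG]
  refine (dist_mul _ _ _ _).trans ?_
  have h1 := dist_fn_le w w' (t + a)
  have h2 := dist_mul (fn w a)⁻¹ (fn w 0) (fn w' a)⁻¹ (fn w' 0)
  rw [dist_inv] at h2
  have h3 := dist_fn_le w w' a
  have h4 := dist_fn_le w w' 0
  linarith

/-- Estimate in the angle. -/
theorem dist_rotG_rotG_le {w : LM G} {a b r : ℝ}
    (h : ∀ t, dist (fn w (t + a)) (fn w (t + b)) ≤ r) : dist (rotG a w) (rotG b w) ≤ 2 * r := by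
  have hr : 0 ≤ r := dist_nonneg.trans (h 0)
  rw [dist_le_iff (by positivity)]
  intro t
  rw [fn_rotG, fn_rotG]
  refine (dist_mul _ _ _ _).trans ?_
  have h2 := dist_mul (fn w a)⁻¹ (fn w 0) (fn w b)⁻¹ (fn w 0)
  rw [dist_inv, dist_self, add_zero] at h2
  have h3 := h 0
  rw [zero_add, zero_add] at h3
  linarith [h t]

end BiInv

/-! ### The map `q` -/

section Q

variable {G : Type} [MetricSpace G] [Group G] [BiInv G] {M : Type} [MetricSpace M]

/-- `γ ↦ (r ↦ h (γ r) h (γ 0)⁻¹)`. -/
def qh (h : C(M, G)) (γ : LM M) : LM G :=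
  ofFn (fun t => h (fn γ t) * (h (fn γ 0))⁻¹)
    ((continuous_mulR _).comp (h.continuous.comp (continuous_fn γ))) fun t => by
      change h (fn γ (t + 1)) * _ = h (fn γ t) * _
      rw [fn_periodic]

variable (h : C(M, G))

@[simp] theorem fn_qh (γ : LM M) (t : ℝ) : fn (qh h γ) t = h (fn γ t) * (h (fn γ 0))⁻¹ := rfl

theorem fn_qh_zero (γ : LM M) : fn (qh h γ) 0 = 1 := by rw [fn_qh, mul_inv_cancel]

theorem qh_rot (a : ℝ) (γ : LM M) : qh h (rot a γ) = rotG a (qh h γ) := ext_fn fun t => by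
  rw [fn_qh, fn_rot, fn_rot, fn_rotG, fn_qh, fn_qh, fn_qh_zero, zero_add]
  group

theorem qh_rev (γ : LM M) : qh h (L250.rev γ) = L250.rev (qh h γ) := ext_fn fun t => by
  rw [fn_qh, fn_rev, fn_rev, fn_rev, fn_qh, neg_zero]

variable [CompactSpace M]

omit [Group G] [BiInv G] in
/-- Modulus of continuity of `h`. -/
theorem exists_modulus {ε : ℝ} (hε : 0 < ε) :
    ∃ δ > 0, ∀ x y, dist x y < δ → dist (h x) (h y) < ε := by
  obtain ⟨δ, hδ, H⟩ := Metric.uniformContinuous_iff.1
    (CompactSpace.uniformContinuous_of_continuous h.continuous) ε hε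
  exact ⟨δ, hδ, fun x y hxy => H hxy⟩

/-- `q` is uniformly continuous. -/
theorem uniformContinuous_qh : UniformContinuous (qh h) := by
  rw [Metric.uniformContinuous_iff]
  intro ε hε
  obtain ⟨δ, hδ, H⟩ := exists_modulus h (ε := ε / 3) (by positivity)
  refine ⟨δ, hδ, fun {γ γ'} hγ => ?_⟩
  have h1 : dist (qh h γ) (qh h γ') ≤ 2 * (ε / 3) := by
    rw [dist_le_iff (by positivity)]
    intro t
    rw [fn_qh, fn_qh]
    refine (dist_mul _ _ _ _).trans ?_
    rw [dist_inv]
    have h2 := H _ _ ((dist_fn_le γ γ' t).trans_lt hγ)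
    have h3 := H _ _ ((dist_fn_le γ γ' 0).trans_lt hγ)
    linarith
  linarith

theorem continuous_qh : Continuous (qh h) := (uniformContinuous_qh h).continuous

/-- The images of the energy sublevels. -/
def GE (s : ℝ) : Set (LM G) := qh h '' XL M s

omit [CompactSpace M] in
theorem qh_mem {s : ℝ} {γ : LM M} (hγ : γ ∈ XL M s) : qh h γ ∈ GE h s := mem_image_of_mem _ hγ

omit [CompactSpace M] in
theorem mapsTo_qh (s : ℝ) : MapsTo (qh h) (XL M s) (GE h s) := fun _ => qh_mem h

theorem isCompact_GE (s : ℝ) : IsCompact (GE h s) :=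
  (isCompact_XE (le_max_right _ _)).image (continuous_qh h)

omit [CompactSpace M] in
theorem GE_mono : Monotone (GE h) := fun _ _ hs => image_mono (XL_mono hs)

omit [CompactSpace M] in
theorem fn_zero_of_mem {s : ℝ} {w : LM G} (hw : w ∈ GE h s) : fn w 0 = 1 := by
  obtain ⟨γ, _, rfl⟩ := hw
  exact fn_qh_zero h γ

omit [CompactSpace M] in
theorem rotG_mem {s : ℝ} {w : LM G} (hw : w ∈ GE h s) (a : ℝ) : rotG a w ∈ GE h s := by
  obtain ⟨γ, hγ, rfl⟩ := hw
  exact ⟨rot a γ, rot_mem hγ a, qh_rot h a γ⟩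

omit [CompactSpace M] in
theorem revG_mem {s : ℝ} {w : LM G} (hw : w ∈ GE h s) : L250.rev w ∈ GE h s := by
  obtain ⟨γ, hγ, rfl⟩ := hw
  exact ⟨L250.rev γ, rev_mem hγ, qh_rev h γ⟩

/-- Common modulus of continuity of the loops in `GE h s`. -/
theorem equi_GE (s : ℝ) {ε : ℝ} (hε : 0 < ε) : ∃ δ > 0, ∀ w ∈ GE h s, ∀ t t' : ℝ, |t - t'| < δ →
    dist (fn w t) (fn w t') < ε := by
  obtain ⟨δ, hδ, H⟩ := exists_modulus h hε
  have h1 := tendsto_modulus (max s 0)
  rw [Metric.tendsto_nhds_nhds] at h1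
  obtain ⟨η, hη, h2⟩ := h1 δ hδ
  refine ⟨η, hη, ?_⟩
  rintro w ⟨γ, hγ, rfl⟩ t t' htt
  rw [fn_qh, fn_qh, BiInv.right]
  refine H _ _ ((dist_fn_le_of_mem hγ (le_max_right _ _) t t').trans_lt ?_)
  have h3 := @h2 |t - t'| (by rwa [Real.dist_eq, sub_zero, abs_abs])
  rw [Real.dist_eq, sub_zero] at h3
  exact (le_abs_self _).trans_lt h3

/-- The circle action is uniformly continuous on `ℝ × GE h s`. -/
theorem rotG_uc (s : ℝ) : ∀ ε > 0, ∃ δ > 0, ∀ a b : ℝ, ∀ x ∈ GE h s, ∀ y ∈ GE h s, |a - b| < δ →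
    dist x y < δ → dist (rotG a x) (rotG b y) < ε := by
  intro ε hε
  obtain ⟨δ, hδ, H⟩ := equi_GE h s (ε := ε / 5) (by positivity)
  refine ⟨min δ (ε / 10), lt_min hδ (by positivity), fun a b x hx y _ hab hxy => ?_⟩
  have h1 : dist (rotG a x) (rotG b x) ≤ 2 * (ε / 5) := dist_rotG_rotG_le fun t =>
    (H x hx _ _ (by
      rw [add_sub_add_left_eq_sub]
      exact hab.trans_le (min_le_left _ _))).le
  have h2 := dist_rotG_le b x y
  have h3 := hxy.trans_le (min_le_right _ _)
  have h4 := dist_triangle (rotG a x) (rotG b x) (rotG b y)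
  linarith

end Q

/-! ### The unit quaternions -/

/-- The unit quaternions. -/
abbrev G3 : Type := Metric.sphere (0 : Quaternion ℝ) 1

theorem dist_G3 (a b : G3) : dist a b = ‖(a : Quaternion ℝ) - b‖ := by
  rw [Subtype.dist_eq, dist_eq_norm]

noncomputable instance : BiInv G3 where
  left a b c := by
    rw [dist_G3, dist_G3, Metric.unitSphere.coe_mul, Metric.unitSphere.coe_mul, ← mul_sub, norm_mul,
      norm_eq_of_mem_sphere c, one_mul]
  right a b c := by
    rw [dist_G3, dist_G3, Metric.unitSphere.coe_mul, Metric.unitSphere.coe_mul, ← sub_mul, norm_mul,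
      norm_eq_of_mem_sphere c, mul_one]

/-- The unit quaternions are the round sphere of dimension `3`. -/
noncomputable def sphG3 : Metric.sphere (0 : EuclideanSpace ℝ (Fin 4)) 1 ≃ₜ G3 where
  toFun x := ⟨Quaternion.linearIsometryEquivTuple.symm x, by
    rw [mem_sphere_zero_iff_norm, LinearIsometryEquiv.norm_map]
    exact norm_eq_of_mem_sphere x⟩
  invFun x := ⟨Quaternion.linearIsometryEquivTuple x, by
    rw [mem_sphere_zero_iff_norm, LinearIsometryEquiv.norm_map]
    exact norm_eq_of_mem_sphere x⟩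
  left_inv x := Subtype.ext (LinearIsometryEquiv.apply_symm_apply _ _)
  right_inv x := Subtype.ext (LinearIsometryEquiv.symm_apply_apply _ _)
  continuous_toFun := by
    apply Continuous.subtype_mk
    exact Quaternion.linearIsometryEquivTuple.symm.continuous.comp continuous_subtype_val
  continuous_invFun := by
    apply Continuous.subtype_mk
    exact Quaternion.linearIsometryEquivTuple.continuous.comp continuous_subtype_val

instance : CompactSpace G3 := sphG3.symm.symm.compactSpace

end Vale.Agent.P216.H126L
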