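import Vale.Agent.P216.H126L.Grp
import Vale.Agent.P216.B64.Contract
import Vale.Agent.P216.DV965.QG

/-!
# The maps of `Grp.lean` as maps for the cohomology
-/

open Set Filter Topology

namespace Vale.Agent.P216.H126L

open L250 GM B64

variable {G : Type} [MetricSpace G] [Group G] [BiInv G] {M : Type} [MetricSpace M]
  [CompactSpace M] (h : C(M, G))

theorem umap_qh {s t : ℝ} (hst : s ≤ t) : UMap (XL M s) (GE h t) (qh h) where
  mapsX _ hγ := GE_mono h hst (qh_mem h hγ)
  eqv i := i.elim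
  uc ε hε := by
    obtain ⟨δ, hδ, H⟩ := Metric.uniformContinuous_iff.1 (uniformContinuous_qh h) ε hε
    exact ⟨δ, hδ, fun _ _ _ _ hxy => H hxy⟩

omit [CompactSpace M] in
theorem umap_revG {s t : ℝ} (hst : s ≤ t) : UMap (GE h s) (GE h t) (L250.rev : LM G → LM G) where
  mapsX _ hγ := GE_mono h hst (revG_mem h hγ)
  eqv i := i.elim
  uc ε hε := ⟨ε, hε, fun _ _ _ _ hxy => by rwa [isometry_rev.dist_eq]⟩

omit [CompactSpace M] in
theorem umap_rotG {s t : ℝ} (hst : s ≤ t) (a : ℝ) : UMap (GE h s) (GE h t) (rotG a) where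
  mapsX _ hγ := GE_mono h hst (rotG_mem h hγ a)
  eqv i := i.elim
  uc ε hε := ⟨ε / 3, by positivity, fun x _ y _ hxy => by
    have := dist_rotG_le a x y
    linarith⟩

/-- the arc from the identity to the rotation by `1 / p` -/
noncomputable def arcG (p : ℕ) (r : ℝ) (w : LM G) : LM G := rotG (r / p) w

theorem isArc_arcG (p : ℕ) : DV965.Arc (rotG (G := G) (1 / p : ℝ)) (arcG p) where
  zero w := by rw [arcG, zero_div, rotG_zero]
  one w := rfl
  comm r _ w := by rw [arcG, arcG, rotG_rotG, rotG_rotG, add_comm]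

theorem uc_arcG (p : ℕ) (hp : 0 < p) (s : ℝ) : DV965.UC (GE h s) (arcG (G := G) p) := by
  intro ε hε
  obtain ⟨δ, hδ, H⟩ := rotG_uc h s ε hε
  refine ⟨δ, hδ, fun r _ r' _ x hx y hy h1 h2 => H _ _ x hx y hy ?_ h2⟩
  have hp1 : (1 : ℝ) ≤ p := by exact_mod_cast hp
  rw [← sub_div, abs_div, Nat.abs_cast]
  exact (div_le_self (abs_nonneg _) hp1).trans_lt h1

end Vale.Agent.P216.H126L
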